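import Crest.Agent.R124.Halving

/-!
# Row 121 (bounded Hochschild cohomology of von Neumann algebras): basic notions

`Alg M` is the C⋆-algebra of the von Neumann algebra `M`; `bid M` is the canonical map
`M** → M`; `wlim` is the weak limit of a bounded family along an ultrafilter; a `Dg A` is a
functional on bounded bilinear forms ("virtual averaging element") and `Pt M t φ` is the
average "`∑ φ(a) c`" of a bounded linear map `φ : M → M` along `t = ∑ a ⊗ c`.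
-/

open scoped InnerProductSpace ComplexOrder Topology
open Filter

set_option linter.unusedSectionVars false

namespace Crest.Agent.R121

noncomputable section

/-! ### Limits of functionals along ultrafilters -/

section ulim

variable {X E : Type*} [NormedAddCommGroup E] [NormedSpace ℂ E]

theorem exists_ulimL (𝒰 : Ultrafilter X) (F : X → E →L[ℂ] ℂ) {C : ℝ} (h : ∀ x, ‖F x‖ ≤ C) :
    ∃ G : E →L[ℂ] ℂ, ‖G‖ ≤ C ∧ ∀ v, Tendsto (fun x => F x v) 𝒰 (𝓝 (G v)) := by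
  have hC : 0 ≤ C := by
    obtain ⟨x⟩ : Nonempty X := Filter.nonempty_of_neBot (𝒰 : Filter X)
    exact (norm_nonneg _).trans (h x)
  have hb : ∀ v x, ‖F x v‖ ≤ C * ‖v‖ := fun v x => (F x).le_of_opNorm_le (h x) v
  have key : ∀ v, ∃ g : ℂ, ‖g‖ ≤ C * ‖v‖ ∧ Tendsto (fun x => F x v) 𝒰 (𝓝 g) := by
    intro v
    obtain ⟨g, hg, hl⟩ := (isCompact_closedBall (0 : ℂ) (C * ‖v‖)).ultrafilter_le_nhds
      (𝒰.map fun x => F x v) (by
        rw [Ultrafilter.coe_map, le_principal_iff, mem_map]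
        exact Eventually.of_forall fun x => by simpa using hb v x)
    exact ⟨g, by simpa using hg, hl⟩
  choose g hg hl using key
  let G : E →ₗ[ℂ] ℂ :=
    { toFun := g
      map_add' := fun v w => tendsto_nhds_unique (hl (v + w)) (by simpa using (hl v).add (hl w))
      map_smul' := fun c v => tendsto_nhds_unique (hl (c • v))
        (by simpa using (hl v).const_mul c) }
  exact ⟨G.mkContinuous C hg, G.mkContinuous_norm_le hC hg, hl⟩

open Classical in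
/-- The weak⋆ limit of a bounded family of functionals along an ultrafilter. -/
def ulimL (𝒰 : Ultrafilter X) (F : X → E →L[ℂ] ℂ) : E →L[ℂ] ℂ :=
  if h : ∃ G : E →L[ℂ] ℂ, ∀ v, Tendsto (fun x => F x v) 𝒰 (𝓝 (G v)) then h.choose else 0

theorem tendsto_ulimL (𝒰 : Ultrafilter X) {F : X → E →L[ℂ] ℂ} {C : ℝ} (h : ∀ x, ‖F x‖ ≤ C)
    (v : E) : Tendsto (fun x => F x v) 𝒰 (𝓝 (ulimL 𝒰 F v)) := by
  obtain ⟨G, -, hG⟩ := exists_ulimL 𝒰 F h
  have h' : ∃ G : E →L[ℂ] ℂ, ∀ v, Tendsto (fun x => F x v) 𝒰 (𝓝 (G v)) := ⟨G, hG⟩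
  rw [ulimL, dif_pos h']
  exact h'.choose_spec v

theorem norm_ulimL_le (𝒰 : Ultrafilter X) {F : X → E →L[ℂ] ℂ} {C : ℝ} (h : ∀ x, ‖F x‖ ≤ C) :
    ‖ulimL 𝒰 F‖ ≤ C := by
  obtain ⟨G, hG1, hG⟩ := exists_ulimL 𝒰 F h
  have : ulimL 𝒰 F = G := by
    ext v
    exact tendsto_nhds_unique (tendsto_ulimL 𝒰 h v) (hG v)
  rwa [this]

end ulim

/-! ### Left multiplication, bilinear forms, averaging elements -/

section alg

variable {A : Type*} [NormedRing A] [NormedAlgebra ℂ A]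

/-- Left multiplication by `a`. -/
abbrev Lm (a : A) : A →L[ℂ] A := ContinuousLinearMap.mul ℂ A a

/-- Right multiplication by `a`. -/
abbrev Rm (a : A) : A →L[ℂ] A := (ContinuousLinearMap.mul ℂ A).flip a

theorem norm_Lm_le (a : A) : ‖Lm a‖ ≤ ‖a‖ := ContinuousLinearMap.opNorm_mul_apply_le ℂ A a

theorem norm_Rm_le (a : A) : ‖Rm a‖ ≤ ‖a‖ :=
  ContinuousLinearMap.opNorm_le_bound _ (norm_nonneg _) fun x => by
    rw [mul_comm]; exact norm_mul_le x a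

/-- Bounded bilinear forms (a type synonym, to keep instance search simple). -/
def Bil (A : Type*) [NormedRing A] [NormedAlgebra ℂ A] := A →L[ℂ] A →L[ℂ] ℂ

instance : NormedAddCommGroup (Bil A) :=
  inferInstanceAs (NormedAddCommGroup (A →L[ℂ] A →L[ℂ] ℂ))

instance : NormedSpace ℂ (Bil A) := inferInstanceAs (NormedSpace ℂ (A →L[ℂ] A →L[ℂ] ℂ))

/-- The underlying continuous bilinear map. -/
def Bil.toL (β : Bil A) : A →L[ℂ] A →L[ℂ] ℂ := β

/-- A continuous bilinear map as a form. -/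
def Bil.ofL (β : A →L[ℂ] A →L[ℂ] ℂ) : Bil A := β

instance : CoeFun (Bil A) (fun _ => A → A → ℂ) := ⟨fun β a c => β.toL a c⟩

@[simp] theorem Bil.ofL_apply (β : A →L[ℂ] A →L[ℂ] ℂ) (a c : A) : Bil.ofL β a c = β a c := rfl

theorem Bil.norm_toL (β : Bil A) : ‖β.toL‖ = ‖β‖ := rfl

@[ext] theorem Bil.ext {β β' : Bil A} (h : ∀ a c, β a c = β' a c) : β = β' :=
  ContinuousLinearMap.ext fun a => ContinuousLinearMap.ext fun c => h a c

theorem Bil.add_apply (β β' : Bil A) (a c : A) : (β + β') a c = β a c + β' a c := rfl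

theorem Bil.sub_apply (β β' : Bil A) (a c : A) : (β - β') a c = β a c - β' a c := rfl

theorem Bil.smul_apply (z : ℂ) (β : Bil A) (a c : A) : (z • β) a c = z * β a c := rfl

theorem Bil.norm_apply_le (β : Bil A) (a c : A) : ‖β a c‖ ≤ ‖β‖ * ‖a‖ * ‖c‖ :=
  β.toL.le_opNorm₂ a c

theorem Bil.norm_le (β : Bil A) {C : ℝ} (hC : 0 ≤ C) (h : ∀ a c, ‖β a c‖ ≤ C * ‖a‖ * ‖c‖) :
    ‖β‖ ≤ C := ContinuousLinearMap.opNorm_le_bound₂ β.toL hC h

/-- Virtual averaging elements: functionals on bounded bilinear forms. -/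
abbrev Dg (A : Type*) [NormedRing A] [NormedAlgebra ℂ A] := Bil A →L[ℂ] ℂ

/-- The form `(a, c) ↦ ω (φ a * c)`. -/
def bilOf (ω : A →L[ℂ] ℂ) (φ : A →L[ℂ] A) : Bil A :=
  Bil.ofL (((ContinuousLinearMap.compL ℂ A A ℂ ω).comp (ContinuousLinearMap.mul ℂ A)).comp φ)

@[simp] theorem bilOf_apply (ω : A →L[ℂ] ℂ) (φ : A →L[ℂ] A) (a c : A) :
    bilOf ω φ a c = ω (φ a * c) := rfl

theorem norm_bilOf_le (ω : A →L[ℂ] ℂ) (φ : A →L[ℂ] A) : ‖bilOf ω φ‖ ≤ ‖ω‖ * ‖φ‖ := by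
  refine Bil.norm_le _ (by positivity) fun a c => ?_
  rw [bilOf_apply]
  calc ‖ω (φ a * c)‖ ≤ ‖ω‖ * ‖φ a * c‖ := ω.le_opNorm _
    _ ≤ ‖ω‖ * (‖φ‖ * ‖a‖ * ‖c‖) := by
        gcongr
        exact (norm_mul_le _ _).trans (by gcongr; exact φ.le_opNorm a)
    _ = _ := by ring

theorem bilOf_add_left (ω ω' : A →L[ℂ] ℂ) (φ : A →L[ℂ] A) :
    bilOf (ω + ω') φ = bilOf ω φ + bilOf ω' φ := Bil.ext fun _ _ => rfl

theorem bilOf_smul_left (z : ℂ) (ω : A →L[ℂ] ℂ) (φ : A →L[ℂ] A) :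
    bilOf (z • ω) φ = z • bilOf ω φ := Bil.ext fun _ _ => rfl

theorem bilOf_add_right (ω : A →L[ℂ] ℂ) (φ φ' : A →L[ℂ] A) :
    bilOf ω (φ + φ') = bilOf ω φ + bilOf ω φ' := Bil.ext fun a c => by
  rw [Bil.add_apply]; simp [add_mul]

theorem bilOf_smul_right (z : ℂ) (ω : A →L[ℂ] ℂ) (φ : A →L[ℂ] A) :
    bilOf ω (z • φ) = z • bilOf ω φ := Bil.ext fun a c => by
  rw [Bil.smul_apply]; simp

/-- The elementary averaging element `a ⊗ c`. -/
def Dg.elem (a c : A) : Dg A :=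
  LinearMap.mkContinuous
    { toFun := fun β => β a c
      map_add' := fun _ _ => rfl
      map_smul' := fun _ _ => rfl } (‖a‖ * ‖c‖) fun β =>
    (β.norm_apply_le a c).trans (le_of_eq (by ring))

@[simp] theorem Dg.elem_apply (a c : A) (β : Bil A) : Dg.elem a c β = β a c := rfl

theorem Dg.norm_elem_le (a c : A) : ‖Dg.elem a c‖ ≤ ‖a‖ * ‖c‖ :=
  LinearMap.mkContinuous_norm_le _ (by positivity) _

end alg

/-! ### Partial unitaries -/

section cu

variable {A : Type*} [CStarAlgebra A]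

/-- `u` is a unitary of the corner `e A e`. -/
def IsCU (e u : A) : Prop := star u * u = e ∧ u * star u = e

theorem IsCU.refl {e : A} (he : IsStarProjection e) : IsCU e e := by
  constructor <;> rw [he.isSelfAdjoint.star_eq, he.isIdempotentElem.eq]

theorem IsCU.star {e u : A} (h : IsCU e u) : IsCU e (star u) :=
  ⟨by rw [star_star, h.2], by rw [star_star, h.1]⟩

theorem mul_eq_self_of_star_mul_self {e u : A} (he : IsStarProjection e) (h : star u * u = e) :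
    u * e = u := by
  have h1 : star (u - u * e) * (u - u * e) = 0 := by
    rw [star_sub, star_mul, he.isSelfAdjoint.star_eq, sub_mul, mul_sub, mul_sub, ← mul_assoc, h,
      mul_assoc e, h, mul_assoc e, ← mul_assoc (star u), h, he.isIdempotentElem.eq,
      he.isIdempotentElem.eq]
    simp
  exact (sub_eq_zero.1 ((CStarRing.star_mul_self_eq_zero_iff _).1 h1)).symm

theorem IsCU.mul_unit {e u : A} (he : IsStarProjection e) (h : IsCU e u) : u * e = u :=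
  mul_eq_self_of_star_mul_self he h.1

theorem IsCU.unit_mul {e u : A} (he : IsStarProjection e) (h : IsCU e u) : e * u = u := by
  have := congrArg Star.star (h.star.mul_unit he)
  rwa [star_mul, star_star, he.isSelfAdjoint.star_eq] at this

theorem IsCU.mul {e u v : A} (he : IsStarProjection e) (hu : IsCU e u) (hv : IsCU e v) :
    IsCU e (u * v) := by
  constructor
  · rw [star_mul, mul_assoc, ← mul_assoc (Star.star u), hu.1, hv.unit_mul he, hv.1]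
  · rw [star_mul, mul_assoc, ← mul_assoc v, hv.2, hu.star.unit_mul he, hu.2]

theorem IsCU.norm_le {e u : A} (he : IsStarProjection e) (h : IsCU e u) : ‖u‖ ≤ 1 := by
  have h1 := CStarRing.norm_star_mul_self (x := u)
  rw [h.1] at h1
  have := he.norm_le
  nlinarith [norm_nonneg u]

theorem isCU_one_iff {u : A} : IsCU 1 u ↔ u ∈ unitary A := Iff.rfl

end cu

/-! ### The algebra of a von Neumann algebra -/

variable {H : Type*} [NormedAddCommGroup H] [InnerProductSpace ℂ H] [CompleteSpace H]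

instance vnClosed (M : VonNeumannAlgebra H) :
    IsClosed (M.toStarSubalgebra : Set (H →L[ℂ] H)) := R124.isClosed_vN M

/-- The C⋆-algebra of `M`. -/
abbrev Alg (M : VonNeumannAlgebra H) := ↥M.toStarSubalgebra

example (M : VonNeumannAlgebra H) : CStarAlgebra (Alg M) := inferInstance

variable {M : VonNeumannAlgebra H}

theorem Alg.mem (x : Alg M) : (x : H →L[ℂ] H) ∈ M := x.2

theorem Alg.norm_coe (x : Alg M) : ‖(x : H →L[ℂ] H)‖ = ‖x‖ := rfl

theorem Alg.norm_apply_le (x : Alg M) (ξ : H) : ‖(x : H →L[ℂ] H) ξ‖ ≤ ‖x‖ * ‖ξ‖ :=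
  (x : H →L[ℂ] H).le_opNorm ξ

theorem Alg.mul_apply (x y : Alg M) (ξ : H) :
    ((x * y : Alg M) : H →L[ℂ] H) ξ = (x : H →L[ℂ] H) ((y : H →L[ℂ] H) ξ) := rfl

theorem Alg.inner_star_left (x : Alg M) (η ξ : H) :
    ⟪((star x : Alg M) : H →L[ℂ] H) η, ξ⟫_ℂ = ⟪η, (x : H →L[ℂ] H) ξ⟫_ℂ :=
  ContinuousLinearMap.adjoint_inner_left (x : H →L[ℂ] H) ξ η

theorem Alg.inner_star_right (x : Alg M) (η ξ : H) :
    ⟪η, ((star x : Alg M) : H →L[ℂ] H) ξ⟫_ℂ = ⟪(x : H →L[ℂ] H) η, ξ⟫_ℂ :=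
  ContinuousLinearMap.adjoint_inner_right (x : H →L[ℂ] H) η ξ

theorem Alg.ext_vec {x y : Alg M}
    (h : ∀ η ξ, ⟪η, (x : H →L[ℂ] H) ξ⟫_ℂ = ⟪η, (y : H →L[ℂ] H) ξ⟫_ℂ) : x = y :=
  Subtype.ext (ContinuousLinearMap.ext fun ξ => ext_inner_left ℂ fun η => h η ξ)

theorem Alg.isStarProjection_iff {x : Alg M} :
    IsStarProjection x ↔ IsStarProjection (x : H →L[ℂ] H) :=
  ⟨fun h => ⟨congrArg Subtype.val h.1.eq, congrArg Subtype.val h.2.star_eq⟩,
    fun h => ⟨Subtype.ext h.1.eq, Subtype.ext h.2.star_eq⟩⟩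

variable (M) in
/-- The vector functional `x ↦ ⟪η, x ξ⟫`. -/
def vecF (η ξ : H) : Alg M →L[ℂ] ℂ :=
  (innerSL ℂ η).comp ((ContinuousLinearMap.apply ℂ H ξ).comp
    (M.toStarSubalgebra.toSubalgebra.toSubmodule.subtypeL))

@[simp] theorem vecF_apply (η ξ : H) (x : Alg M) :
    vecF M η ξ x = ⟪η, (x : H →L[ℂ] H) ξ⟫_ℂ := rfl

theorem norm_vecF_le (η ξ : H) : ‖vecF M η ξ‖ ≤ ‖η‖ * ‖ξ‖ :=
  ContinuousLinearMap.opNorm_le_bound _ (by positivity) fun x => by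
    rw [vecF_apply]
    refine (norm_inner_le_norm _ _).trans ?_
    rw [mul_assoc, mul_comm ‖ξ‖]
    gcongr
    exact Alg.norm_apply_le x ξ

variable (M) in
/-- Normal functionals: the norm closure of the span of the vector functionals. -/
def normalF : Submodule ℂ (Alg M →L[ℂ] ℂ) :=
  (Submodule.span ℂ {ω | ∃ η ξ, ω = vecF M η ξ}).topologicalClosure

variable (M) in
/-- A normal functional. -/
abbrev IsNormal (ω : Alg M →L[ℂ] ℂ) : Prop := ω ∈ normalF M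

theorem isNormal_vecF (η ξ : H) : IsNormal M (vecF M η ξ) :=
  Submodule.le_topologicalClosure _ (Submodule.subset_span ⟨η, ξ, rfl⟩)

theorem isClosed_normalF : IsClosed (normalF M : Set (Alg M →L[ℂ] ℂ)) :=
  Submodule.isClosed_topologicalClosure _

/-- Induction principle: a closed submodule containing the vector functionals contains the
normal functionals. -/
theorem normalF_le {S : Submodule ℂ (Alg M →L[ℂ] ℂ)} (hS : IsClosed (S : Set (Alg M →L[ℂ] ℂ)))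
    (h : ∀ η ξ, vecF M η ξ ∈ S) : normalF M ≤ S :=
  Submodule.topologicalClosure_minimal _
    (Submodule.span_le.2 (by rintro _ ⟨η, ξ, rfl⟩; exact h η ξ)) hS

/-- Two bounded functionals on the dual agreeing on vector functionals agree on normal ones. -/
theorem eq_of_normal {Λ Λ' : (Alg M →L[ℂ] ℂ) →L[ℂ] ℂ}
    (h : ∀ η ξ, Λ (vecF M η ξ) = Λ' (vecF M η ξ)) {ω : Alg M →L[ℂ] ℂ} (hω : IsNormal M ω) :
    Λ ω = Λ' ω := by
  have := normalF_le (M := M) (S := LinearMap.ker (Λ - Λ').toLinearMap)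
    (ContinuousLinearMap.isClosed_ker (Λ - Λ')) (fun η ξ => by
      simp [LinearMap.mem_ker, h η ξ]) hω
  simpa [sub_eq_zero] using this

/-- Normal functionals are stable under precomposition with any bounded map whose transpose
sends vector functionals to normal functionals. -/
theorem IsNormal.comp {K : Type*} [NormedAddCommGroup K] [InnerProductSpace ℂ K]
    [CompleteSpace K] {N : VonNeumannAlgebra K} (T : Alg N →L[ℂ] Alg M)
    (hT : ∀ η ξ, IsNormal N ((vecF M η ξ).comp T)) {ω : Alg M →L[ℂ] ℂ} (hω : IsNormal M ω) :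
    IsNormal N (ω.comp T) := by
  let R : (Alg M →L[ℂ] ℂ) →L[ℂ] (Alg N →L[ℂ] ℂ) :=
    (ContinuousLinearMap.compL ℂ (Alg N) (Alg M) ℂ).flip T
  exact normalF_le (M := M) (S := (normalF N).comap R.toLinearMap)
    (isClosed_normalF.preimage R.continuous) hT hω

theorem IsNormal.mul {ω : Alg M →L[ℂ] ℂ} (hω : IsNormal M ω) (a b : Alg M) :
    IsNormal M (ω.comp ((Lm a).comp (Rm b))) := by
  refine IsNormal.comp _ (fun η ξ => ?_) hω
  have : (vecF M η ξ).comp ((Lm a).comp (Rm b)) =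
      vecF M (((star a : Alg M) : H →L[ℂ] H) η) ((b : H →L[ℂ] H) ξ) := by
    ext x
    rw [vecF_apply, Alg.inner_star_left]
    rfl
  rw [this]
  exact isNormal_vecF _ _

theorem exists_bid (Λ : (Alg M →L[ℂ] ℂ) →L[ℂ] ℂ) :
    ∃ x : Alg M, ‖x‖ ≤ ‖Λ‖ ∧ ∀ η ξ, ⟪η, (x : H →L[ℂ] H) ξ⟫_ℂ = Λ (vecF M η ξ) := by
  have hb : ∀ ξ η, ‖Λ (vecF M η ξ)‖ ≤ ‖Λ‖ * ‖ξ‖ * ‖η‖ := fun ξ η =>
    (Λ.le_opNorm _).trans (by
      rw [mul_assoc, mul_comm ‖ξ‖]; gcongr; exact norm_vecF_le η ξ)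
  have key : ∀ ξ, ∃ v : H, ∀ η, ⟪η, v⟫_ℂ = Λ (vecF M η ξ) := by
    intro ξ
    let f : H →ₗ[ℂ] ℂ :=
      { toFun := fun η => starRingEnd ℂ (Λ (vecF M η ξ))
        map_add' := fun η η' => by
          rw [← map_add, ← map_add]; congr 2; ext x; simp
        map_smul' := fun c η => by
          have : vecF M (c • η) ξ = starRingEnd ℂ c • vecF M η ξ := by
            ext x; simp [mul_comm]
          simp [this] }
    refine ⟨(InnerProductSpace.toDual ℂ H).symm (f.mkContinuous (‖Λ‖ * ‖ξ‖) fun η => by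
      simpa [f] using hb ξ η), fun η => ?_⟩
    rw [← inner_conj_symm, InnerProductSpace.toDual_symm_apply]
    simp [f]
  choose v hv using key
  have hvb : ∀ ξ, ‖v ξ‖ ≤ ‖Λ‖ * ‖ξ‖ := fun ξ => by
    have h1 := hb ξ (v ξ)
    rw [← hv, inner_self_eq_norm_sq_to_K] at h1
    have h2 : ‖v ξ‖ * ‖v ξ‖ ≤ ‖Λ‖ * ‖ξ‖ * ‖v ξ‖ := by simpa [sq] using h1
    rcases (norm_nonneg (v ξ)).eq_or_lt with h0 | h0
    · rw [← h0]; positivity
    · exact le_of_mul_le_mul_right h2 h0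
  let T : H →ₗ[ℂ] H :=
    { toFun := v
      map_add' := fun ξ ξ' => ext_inner_left ℂ fun η => by
        rw [inner_add_right, hv, hv, hv, ← map_add]; congr 1; ext x; simp
      map_smul' := fun c ξ => ext_inner_left ℂ fun η => by
        have : vecF M η (c • ξ) = c • vecF M η ξ := by ext x; simp
        simp [inner_smul_right, hv, this] }
  refine ⟨⟨T.mkContinuous ‖Λ‖ hvb, R124.mem_vN_of_commute M fun y hy => ?_⟩,
    T.mkContinuous_norm_le (ContinuousLinearMap.opNorm_nonneg Λ) hvb, fun η ξ => hv ξ η⟩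
  refine ContinuousLinearMap.ext fun ξ => ext_inner_left ℂ fun η => ?_
  change ⟪η, y (v ξ)⟫_ℂ = ⟪η, v (y ξ)⟫_ℂ
  rw [← ContinuousLinearMap.adjoint_inner_left, hv, hv]
  congr 1
  ext x
  rw [vecF_apply, vecF_apply, ContinuousLinearMap.adjoint_inner_left]
  exact congrArg (fun T : H →L[ℂ] H => ⟪η, T ξ⟫_ℂ)
    (R124.commute_of_mem_commutant hy x.2).eq

variable (M) in
/-- The canonical map `M** → M`. -/
def bid (Λ : (Alg M →L[ℂ] ℂ) →L[ℂ] ℂ) : Alg M := (exists_bid Λ).choose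

theorem inner_bid (Λ : (Alg M →L[ℂ] ℂ) →L[ℂ] ℂ) (η ξ : H) :
    ⟪η, (bid M Λ : H →L[ℂ] H) ξ⟫_ℂ = Λ (vecF M η ξ) := (exists_bid Λ).choose_spec.2 η ξ

theorem norm_bid_le (Λ : (Alg M →L[ℂ] ℂ) →L[ℂ] ℂ) : ‖bid M Λ‖ ≤ ‖Λ‖ :=
  (exists_bid Λ).choose_spec.1

theorem normal_bid (Λ : (Alg M →L[ℂ] ℂ) →L[ℂ] ℂ) {ω : Alg M →L[ℂ] ℂ} (hω : IsNormal M ω) :
    ω (bid M Λ) = Λ ω :=
  eq_of_normal (Λ := ContinuousLinearMap.apply ℂ ℂ (bid M Λ)) (fun η ξ => inner_bid Λ η ξ) hω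

/-! ### Weak limits along ultrafilters -/

section wlim

variable {X : Type*}

/-- The weak limit of a bounded family in `M` along an ultrafilter. -/
def wlim (𝒰 : Ultrafilter X) (T : X → Alg M) : Alg M :=
  bid M (ulimL 𝒰 fun x => ContinuousLinearMap.apply ℂ ℂ (T x))

theorem norm_apply_le' (a : Alg M) :
    ‖(ContinuousLinearMap.apply ℂ ℂ a : (Alg M →L[ℂ] ℂ) →L[ℂ] ℂ)‖ ≤ ‖a‖ :=
  ContinuousLinearMap.opNorm_le_bound _ (norm_nonneg _) fun ω => by
    rw [mul_comm]; exact ω.le_opNorm a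

variable (𝒰 : Ultrafilter X) {T T' : X → Alg M} {C C' : ℝ}

theorem tendsto_wlim (h : ∀ x, ‖T x‖ ≤ C) {ω : Alg M →L[ℂ] ℂ} (hω : IsNormal M ω) :
    Tendsto (fun x => ω (T x)) 𝒰 (𝓝 (ω (wlim 𝒰 T))) := by
  rw [wlim, normal_bid _ hω]
  exact tendsto_ulimL 𝒰 (fun x => (norm_apply_le' (T x)).trans (h x)) ω

theorem tendsto_inner_wlim (h : ∀ x, ‖T x‖ ≤ C) (η ξ : H) :
    Tendsto (fun x => ⟪η, (T x : H →L[ℂ] H) ξ⟫_ℂ) 𝒰 (𝓝 ⟪η, (wlim 𝒰 T : H →L[ℂ] H) ξ⟫_ℂ) :=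
  tendsto_wlim 𝒰 h (isNormal_vecF η ξ)

theorem norm_wlim_le (h : ∀ x, ‖T x‖ ≤ C) : ‖wlim 𝒰 T‖ ≤ C :=
  (norm_bid_le _).trans (norm_ulimL_le 𝒰 fun x => (norm_apply_le' (T x)).trans (h x))

/-- Identify a weak limit. -/
theorem wlim_eq (h : ∀ x, ‖T x‖ ≤ C) {y : Alg M}
    (hy : ∀ η ξ, Tendsto (fun x => ⟪η, (T x : H →L[ℂ] H) ξ⟫_ℂ) 𝒰 (𝓝 ⟪η, (y : H →L[ℂ] H) ξ⟫_ℂ)) :
    wlim 𝒰 T = y :=
  Alg.ext_vec fun η ξ => tendsto_nhds_unique (tendsto_inner_wlim 𝒰 h η ξ) (hy η ξ)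

theorem wlim_const (y : Alg M) : wlim 𝒰 (fun _ => y) = y :=
  wlim_eq 𝒰 (fun _ => le_rfl) fun _ _ => tendsto_const_nhds

theorem wlim_of_tendsto (h : ∀ x, ‖T x‖ ≤ C) {y : Alg M} (hy : Tendsto T 𝒰 (𝓝 y)) :
    wlim 𝒰 T = y :=
  wlim_eq 𝒰 h fun η ξ => ((vecF M η ξ).continuous.tendsto y).comp hy

theorem wlim_congr (h : ∀ x, ‖T x‖ ≤ C) (h' : ∀ x, ‖T' x‖ ≤ C') (he : T =ᶠ[𝒰] T') :
    wlim 𝒰 T = wlim 𝒰 T' :=
  wlim_eq 𝒰 h fun η ξ => (tendsto_inner_wlim 𝒰 h' η ξ).congr'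
    (he.mono fun x hx => by simp only [hx])

theorem wlim_add (h : ∀ x, ‖T x‖ ≤ C) (h' : ∀ x, ‖T' x‖ ≤ C') :
    wlim 𝒰 (fun x => T x + T' x) = wlim 𝒰 T + wlim 𝒰 T' :=
  wlim_eq 𝒰 (C := C + C') (fun x => (norm_add_le _ _).trans (add_le_add (h x) (h' x)))
    fun η ξ => by
      simpa [inner_add_right] using
        (tendsto_inner_wlim 𝒰 h η ξ).add (tendsto_inner_wlim 𝒰 h' η ξ)

theorem wlim_smul (h : ∀ x, ‖T x‖ ≤ C) (c : ℂ) :
    wlim 𝒰 (fun x => c • T x) = c • wlim 𝒰 T :=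
  wlim_eq 𝒰 (C := ‖c‖ * C) (fun x => by rw [norm_smul]; gcongr; exact h x)
    fun η ξ => by
      simpa [inner_smul_right] using (tendsto_inner_wlim 𝒰 h η ξ).const_mul c

theorem wlim_sub (h : ∀ x, ‖T x‖ ≤ C) (h' : ∀ x, ‖T' x‖ ≤ C') :
    wlim 𝒰 (fun x => T x - T' x) = wlim 𝒰 T - wlim 𝒰 T' :=
  wlim_eq 𝒰 (C := C + C') (fun x => (norm_sub_le _ _).trans (add_le_add (h x) (h' x)))
    fun η ξ => by
      simpa [inner_sub_right] using
        (tendsto_inner_wlim 𝒰 h η ξ).sub (tendsto_inner_wlim 𝒰 h' η ξ)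

theorem wlim_mul_left (h : ∀ x, ‖T x‖ ≤ C) (a : Alg M) :
    wlim 𝒰 (fun x => a * T x) = a * wlim 𝒰 T :=
  wlim_eq 𝒰 (C := ‖a‖ * C) (fun x => (norm_mul_le _ _).trans (by gcongr; exact h x))
    fun η ξ => by
      simpa only [Alg.mul_apply, ← Alg.inner_star_left a] using
        tendsto_inner_wlim 𝒰 h (((star a : Alg M) : H →L[ℂ] H) η) ξ

theorem wlim_mul_right (h : ∀ x, ‖T x‖ ≤ C) (a : Alg M) :
    wlim 𝒰 (fun x => T x * a) = wlim 𝒰 T * a :=
  wlim_eq 𝒰 (C := C * ‖a‖) (fun x => (norm_mul_le _ _).trans (by gcongr; exact h x))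
    fun η ξ => tendsto_inner_wlim 𝒰 h η ((a : H →L[ℂ] H) ξ)

theorem wlim_star (h : ∀ x, ‖T x‖ ≤ C) :
    wlim 𝒰 (fun x => star (T x)) = star (wlim 𝒰 T) :=
  wlim_eq 𝒰 (C := C) (fun x => by rw [norm_star]; exact h x) fun η ξ => by
    have := ((Complex.continuous_conj.tendsto _).comp (tendsto_inner_wlim 𝒰 h ξ η))
    simp only [Alg.inner_star_right]
    simpa [Function.comp_def] using this

/-- A pointwise weak limit of a bounded family of bounded linear maps. -/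
def wlimL {E : Type*} [NormedAddCommGroup E] [NormedSpace ℂ E] (𝒰 : Ultrafilter X)
    (F : X → E →L[ℂ] Alg M) (C : ℝ) (h : ∀ x, ‖F x‖ ≤ C) : E →L[ℂ] Alg M :=
  LinearMap.mkContinuous
    { toFun := fun v => wlim 𝒰 fun x => F x v
      map_add' := fun v w => by
        simp only [map_add]
        exact wlim_add 𝒰 (fun x => (F x).le_of_opNorm_le (h x) v)
          (fun x => (F x).le_of_opNorm_le (h x) w)
      map_smul' := fun c v => by
        simp only [map_smul]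
        exact wlim_smul 𝒰 (fun x => (F x).le_of_opNorm_le (h x) v) c } C
    fun v => norm_wlim_le 𝒰 fun x => (F x).le_of_opNorm_le (h x) v

theorem wlimL_apply {E : Type*} [NormedAddCommGroup E] [NormedSpace ℂ E] (𝒰 : Ultrafilter X)
    (F : X → E →L[ℂ] Alg M) (C : ℝ) (h : ∀ x, ‖F x‖ ≤ C) (v : E) :
    wlimL 𝒰 F C h v = wlim 𝒰 fun x => F x v := rfl

theorem norm_wlimL_le {E : Type*} [NormedAddCommGroup E] [NormedSpace ℂ E] (𝒰 : Ultrafilter X)
    (F : X → E →L[ℂ] Alg M) (C : ℝ) (h : ∀ x, ‖F x‖ ≤ C) : ‖wlimL 𝒰 F C h‖ ≤ C := by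
  obtain ⟨x⟩ : Nonempty X := Filter.nonempty_of_neBot (𝒰 : Filter X)
  exact LinearMap.mkContinuous_norm_le _ ((norm_nonneg _).trans (h x)) _

end wlim

/-! ### The averaging operator of an averaging element -/

/-- The functional `ω ↦ t (bilOf ω φ)` on the dual. -/
def ptF (t : Dg (Alg M)) (φ : Alg M →L[ℂ] Alg M) : (Alg M →L[ℂ] ℂ) →L[ℂ] ℂ :=
  LinearMap.mkContinuous
    { toFun := fun ω => t (bilOf ω φ)
      map_add' := fun ω ω' => by rw [bilOf_add_left, map_add]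
      map_smul' := fun z ω => by rw [bilOf_smul_left, map_smul]; rfl } (‖t‖ * ‖φ‖) fun ω => by
    refine (t.le_opNorm _).trans ?_
    rw [mul_assoc, mul_comm ‖φ‖]
    gcongr
    exact norm_bilOf_le ω φ

theorem norm_bid_ptF_le (t : Dg (Alg M)) (φ : Alg M →L[ℂ] Alg M) :
    ‖bid M (ptF t φ)‖ ≤ ‖t‖ * ‖φ‖ :=
  (norm_bid_le _).trans (LinearMap.mkContinuous_norm_le _ (by positivity) _)

variable (M) in
/-- `Pt M t φ = "∑ φ(a) c"` for `t = "∑ a ⊗ c"`. -/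
def Pt (t : Dg (Alg M)) : (Alg M →L[ℂ] Alg M) →L[ℂ] Alg M :=
  LinearMap.mkContinuous
    { toFun := fun φ => bid M (ptF t φ)
      map_add' := fun φ φ' => Alg.ext_vec fun η ξ => by
        have h1 := inner_bid (ptF t φ) η ξ
        have h2 := inner_bid (ptF t φ') η ξ
        rw [inner_bid]
        change t (bilOf _ _) = ⟪η, (bid M (ptF t φ) : H →L[ℂ] H) ξ +
          (bid M (ptF t φ') : H →L[ℂ] H) ξ⟫_ℂ
        rw [bilOf_add_right, map_add, inner_add_right, h1, h2]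
        rfl
      map_smul' := fun z φ => Alg.ext_vec fun η ξ => by
        have h1 := inner_bid (ptF t φ) η ξ
        rw [inner_bid]
        change t (bilOf _ _) = ⟪η, z • (bid M (ptF t φ) : H →L[ℂ] H) ξ⟫_ℂ
        rw [bilOf_smul_right, map_smul, inner_smul_right, h1]
        rfl } ‖t‖ (norm_bid_ptF_le t)

theorem normal_Pt (t : Dg (Alg M)) (φ : Alg M →L[ℂ] Alg M) {ω : Alg M →L[ℂ] ℂ}
    (hω : IsNormal M ω) : ω (Pt M t φ) = t (bilOf ω φ) :=
  normal_bid (ptF t φ) hω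

theorem inner_Pt (t : Dg (Alg M)) (φ : Alg M →L[ℂ] Alg M) (η ξ : H) :
    ⟪η, (Pt M t φ : H →L[ℂ] H) ξ⟫_ℂ = t (bilOf (vecF M η ξ) φ) :=
  normal_Pt t φ (isNormal_vecF η ξ)

theorem norm_Pt_apply_le (t : Dg (Alg M)) (φ : Alg M →L[ℂ] Alg M) :
    ‖Pt M t φ‖ ≤ ‖t‖ * ‖φ‖ := norm_bid_ptF_le t φ

theorem norm_Pt_le (t : Dg (Alg M)) : ‖Pt M t‖ ≤ ‖t‖ :=
  ContinuousLinearMap.opNorm_le_bound _ (norm_nonneg _) (norm_Pt_apply_le t)

theorem Pt_left (t : Dg (Alg M)) (a : Alg M) (φ : Alg M →L[ℂ] Alg M) :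
    Pt M t (Lm a ∘L φ) = a * Pt M t φ := Alg.ext_vec fun η ξ => by
  rw [Alg.mul_apply, ← Alg.inner_star_left a, inner_Pt, inner_Pt]
  congr 1
  ext x c
  rw [bilOf_apply, bilOf_apply, vecF_apply, vecF_apply, Alg.inner_star_left]
  rfl

theorem Pt_elem (a c : Alg M) (φ : Alg M →L[ℂ] Alg M) : Pt M (Dg.elem a c) φ = φ a * c :=
  Alg.ext_vec fun η ξ => by rw [inner_Pt]; rfl

theorem Pt_add (t t' : Dg (Alg M)) (φ : Alg M →L[ℂ] Alg M) :
    Pt M (t + t') φ = Pt M t φ + Pt M t' φ := Alg.ext_vec fun η ξ => by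
  rw [inner_Pt, add_apply, ← inner_Pt, ← inner_Pt, ← inner_add_right]; rfl

theorem Pt_smul (c : ℂ) (t : Dg (Alg M)) (φ : Alg M →L[ℂ] Alg M) :
    Pt M (c • t) φ = c • Pt M t φ := Alg.ext_vec fun η ξ => by
  rw [inner_Pt, smul_apply, ← inner_Pt, smul_eq_mul, ← inner_smul_right]; rfl

theorem Pt_sum {ι : Type*} (s : Finset ι) (t : ι → Dg (Alg M)) (φ : Alg M →L[ℂ] Alg M) :
    Pt M (∑ i ∈ s, t i) φ = ∑ i ∈ s, Pt M (t i) φ := by
  classical
  induction s using Finset.induction_on with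
  | empty => exact Alg.ext_vec fun η ξ => by rw [inner_Pt]; simp
  | insert a s ha ih => rw [Finset.sum_insert ha, Finset.sum_insert ha, Pt_add, ih]

theorem Pt_ulimL {X : Type*} (𝒰 : Ultrafilter X) {t : X → Dg (Alg M)} {C : ℝ}
    (h : ∀ x, ‖t x‖ ≤ C) (φ : Alg M →L[ℂ] Alg M) :
    Pt M (ulimL 𝒰 t) φ = wlim 𝒰 fun x => Pt M (t x) φ := by
  refine (wlim_eq 𝒰 (C := C * ‖φ‖)
    (fun x => (norm_Pt_apply_le _ _).trans (by gcongr; exact h x)) fun η ξ => ?_).symm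
  simp only [inner_Pt]
  exact tendsto_ulimL 𝒰 h _

/-- The averaged map `x ↦ Pt t (φ (x ·))`. -/
def rho (t : Dg (Alg M)) (φ : Alg M →L[ℂ] Alg M) : Alg M →L[ℂ] Alg M :=
  (Pt M t).comp ((ContinuousLinearMap.compL ℂ _ _ _ φ).comp (ContinuousLinearMap.mul ℂ (Alg M)))

theorem rho_apply (t : Dg (Alg M)) (φ : Alg M →L[ℂ] Alg M) (x : Alg M) :
    rho t φ x = Pt M t (φ ∘L Lm x) := rfl

theorem norm_rho_le (t : Dg (Alg M)) (φ : Alg M →L[ℂ] Alg M) : ‖rho t φ‖ ≤ ‖t‖ * ‖φ‖ :=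
  ContinuousLinearMap.opNorm_le_bound _ (by positivity) fun x => by
    rw [rho_apply, mul_assoc]
    refine (norm_Pt_apply_le _ _).trans ?_
    gcongr
    exact (ContinuousLinearMap.opNorm_comp_le _ _).trans
      (mul_le_mul_of_nonneg_left (norm_Lm_le x) (norm_nonneg _))

theorem rho_comp_Lm (t : Dg (Alg M)) (φ : Alg M →L[ℂ] Alg M) (y : Alg M) :
    rho t (φ ∘L Lm y) = rho t φ ∘L Lm y := by
  ext1 x
  rw [ContinuousLinearMap.comp_apply, rho_apply, rho_apply]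
  congr 1

theorem rho_Lm_comp (t : Dg (Alg M)) (φ : Alg M →L[ℂ] Alg M) (y : Alg M) :
    rho t (Lm y ∘L φ) = Lm y ∘L rho t φ := by
  ext1 x
  rw [ContinuousLinearMap.comp_apply, rho_apply, rho_apply, ContinuousLinearMap.comp_assoc,
    Pt_left]
  rfl

theorem rho_id {t : Dg (Alg M)} (ht : Pt M t (ContinuousLinearMap.id ℂ _) = 1) :
    rho t (ContinuousLinearMap.id ℂ _) = ContinuousLinearMap.id ℂ _ := by
  ext1 x
  rw [rho_apply, ContinuousLinearMap.id_comp, ← ContinuousLinearMap.comp_id (Lm x), Pt_left, ht,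
    mul_one, ContinuousLinearMap.id_apply]

/-- The form `(a', c') ↦ β (a a') (c' c)`. -/
def Bil.shift {A : Type*} [NormedRing A] [NormedAlgebra ℂ A] (β : Bil A) (a c : A) : Bil A :=
  Bil.ofL ((β.toL.comp (Lm a)).flip.comp (Rm c)).flip

@[simp] theorem Bil.shift_apply {A : Type*} [NormedRing A] [NormedAlgebra ℂ A] (β : Bil A)
    (a c a' c' : A) : β.shift a c a' c' = β (a * a') (c' * c) := rfl

theorem Bil.norm_shift_le {A : Type*} [NormedRing A] [NormedAlgebra ℂ A] (β : Bil A) (a c : A) :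
    ‖β.shift a c‖ ≤ ‖β‖ * ‖a‖ * ‖c‖ :=
  Bil.norm_le _ (by positivity) fun a' c' => by
    rw [Bil.shift_apply]
    refine (β.norm_apply_le _ _).trans ?_
    calc ‖β‖ * ‖a * a'‖ * ‖c' * c‖ ≤ ‖β‖ * (‖a‖ * ‖a'‖) * (‖c'‖ * ‖c‖) := by
          gcongr <;> exact norm_mul_le _ _
      _ = _ := by ring

/-- The form `(a, c) ↦ t (β.shift a c)`. -/
def Dg.act {A : Type*} [NormedRing A] [NormedAlgebra ℂ A] (t : Dg A) (β : Bil A) : Bil A :=
  Bil.ofL (LinearMap.mkContinuous₂ (LinearMap.mk₂ ℂ (fun a c => t (β.shift a c))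
    (fun a a' c => by
      rw [← map_add]; congr 1; ext x y; rw [Bil.add_apply]; simp [add_mul])
    (fun z a c => by
      rw [← map_smul]; congr 1; ext x y; rw [Bil.smul_apply]; simp)
    (fun a c c' => by
      rw [← map_add]; congr 1; ext x y; rw [Bil.add_apply]; simp [mul_add])
    (fun z a c => by
      rw [← map_smul]; congr 1; ext x y; rw [Bil.smul_apply]; simp)) (‖t‖ * ‖β‖) fun a c => by
    refine (t.le_opNorm _).trans ?_
    rw [mul_assoc, mul_assoc, ← mul_assoc ‖β‖]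
    gcongr
    exact β.norm_shift_le a c)

@[simp] theorem Dg.act_apply {A : Type*} [NormedRing A] [NormedAlgebra ℂ A] (t : Dg A) (β : Bil A)
    (a c : A) : t.act β a c = t (β.shift a c) := rfl

theorem Dg.norm_act_le {A : Type*} [NormedRing A] [NormedAlgebra ℂ A] (t : Dg A) (β : Bil A) :
    ‖t.act β‖ ≤ ‖t‖ * ‖β‖ :=
  Bil.norm_le _ (by positivity) fun a c => by
    rw [Dg.act_apply]
    refine (t.le_opNorm _).trans ?_
    rw [mul_assoc, mul_assoc, ← mul_assoc ‖β‖]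
    gcongr
    exact β.norm_shift_le a c

/-- The Arens product of averaging elements: first average with `t₁`, then with `t₂`. -/
def Dg.mul {A : Type*} [NormedRing A] [NormedAlgebra ℂ A] (t₂ t₁ : Dg A) : Dg A :=
  LinearMap.mkContinuous
    { toFun := fun β => t₂ (t₁.act β)
      map_add' := fun β β' => by
        rw [← map_add]; congr 1; ext a c
        rw [Bil.add_apply, Dg.act_apply, Dg.act_apply, Dg.act_apply, ← map_add]; rfl
      map_smul' := fun z β => by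
        rw [RingHom.id_apply, ← map_smul]; congr 1; ext a c
        rw [Bil.smul_apply, Dg.act_apply, Dg.act_apply, ← smul_eq_mul, ← map_smul]; rfl }
    (‖t₂‖ * ‖t₁‖) fun β => by
      refine (t₂.le_opNorm _).trans ?_
      rw [mul_assoc]
      gcongr
      exact t₁.norm_act_le β

theorem Dg.norm_mul_le {A : Type*} [NormedRing A] [NormedAlgebra ℂ A] (t₂ t₁ : Dg A) :
    ‖t₂.mul t₁‖ ≤ ‖t₂‖ * ‖t₁‖ :=
  LinearMap.mkContinuous_norm_le _ (by positivity) _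

theorem Pt_mul (t₂ t₁ : Dg (Alg M)) (φ : Alg M →L[ℂ] Alg M) :
    Pt M (t₂.mul t₁) φ = Pt M t₂ (rho t₁ φ) := Alg.ext_vec fun η ξ => by
  rw [inner_Pt, inner_Pt]
  change t₂ (t₁.act _) = _
  congr 1
  ext a c
  rw [Dg.act_apply, bilOf_apply, vecF_apply, Alg.mul_apply, rho_apply, inner_Pt]
  congr 1

/-! ### Averaging operators -/

variable (M) in
/-- A good averaging element: every bounded map becomes a right module map. -/
structure DgGood (t : Dg (Alg M)) : Prop where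
  norm_le : ‖t‖ ≤ 1
  unit : Pt M t (ContinuousLinearMap.id ℂ _) = 1
  modular : ∀ φ y, Pt M t (φ ∘L Lm y) = Pt M t φ * y

variable (M) in
/-- An averaging operator for the corner `e M e` and the class `𝓒`. -/
structure AvgOn (e : Alg M) (𝓒 : (Alg M →L[ℂ] Alg M) → Prop)
    (P : (Alg M →L[ℂ] Alg M) →L[ℂ] Alg M) : Prop where
  norm_le : ‖P‖ ≤ 1
  left : ∀ a φ, P (Lm a ∘L φ) = a * P φ
  unit : P (ContinuousLinearMap.id ℂ _) = e
  modular : ∀ φ, 𝓒 φ → ∀ y, e * y * e = y → P (φ ∘L Lm y) = P φ * y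

variable (M) in
/-- An averaging operator for the central summand `z M` and the class `𝓒`. -/
structure AvgZ (z : Alg M) (𝓒 : (Alg M →L[ℂ] Alg M) → Prop)
    (P : (Alg M →L[ℂ] Alg M) →L[ℂ] Alg M) : Prop where
  norm_le : ‖P‖ ≤ 1
  left : ∀ a φ, P (Lm a ∘L φ) = a * P φ
  unit : P (ContinuousLinearMap.id ℂ _) = z
  supp : ∀ φ, P φ * z = P φ
  modular : ∀ φ, 𝓒 φ → ∀ y, P (φ ∘L Lm y) = P φ * y

variable (M) in
/-- Complete boundedness with constant `K`. -/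
def IsCBK (φ : Alg M →L[ℂ] Alg M) (K : ℝ) : Prop :=
  ∀ (κ σ : Type) [Fintype κ] [Fintype σ] (X : κ → σ → Alg M),
    (∀ η : σ → H, ∑ k, ‖∑ s, (X k s : H →L[ℂ] H) (η s)‖ ^ 2 ≤ ∑ s, ‖η s‖ ^ 2) →
    ∀ ζ : σ → H, ∑ k, ‖∑ s, (φ (X k s) : H →L[ℂ] H) (ζ s)‖ ^ 2 ≤ K ^ 2 * ∑ s, ‖ζ s‖ ^ 2

variable (M) in
/-- Complete boundedness. -/
def IsCB (φ : Alg M →L[ℂ] Alg M) : Prop := ∃ K, IsCBK M φ K

/-! ### Projections with a trace, abelian projections -/

variable (M) in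
/-- `f` is a nonzero projection whose corner carries a faithful normal trace. -/
def HasTr (f : Alg M) : Prop :=
  IsStarProjection f ∧ f ≠ 0 ∧ ∃ τ : Alg M →L[ℂ] ℂ, IsNormal M τ ∧
    (∀ y, y * f = y → 0 ≤ τ (star y * y)) ∧
    (∀ y, y * f = y → τ (star y * y) = 0 → y = 0) ∧
    ∀ a b, f * a * f = a → f * b * f = b → τ (a * b) = τ (b * a)

variable (M) in
/-- No projection below `z` has a trace. -/
def NoTr (z : Alg M) : Prop := ∀ f, f * z = f → ¬HasTr M f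

variable (M) in
/-- Abelian projections. -/
def IsAbel (r : Alg M) : Prop :=
  IsStarProjection r ∧ ∀ a b, Commute (r * a * r) (r * b * r)

theorem isAbel_iff {r : Alg M} : IsAbel M r ↔ R124.IsAbelianProj M (r : H →L[ℂ] H) :=
  ⟨fun h => ⟨r.2, Alg.isStarProjection_iff.1 h.1, fun a ha b hb =>
      congrArg Subtype.val (h.2 ⟨a, ha⟩ ⟨b, hb⟩).eq⟩,
    fun h => ⟨Alg.isStarProjection_iff.2 h.proj, fun a b => Subtype.ext (h.comm a a.2 b b.2).eq⟩⟩

variable (M) in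
/-- Central projections. -/
def IsCentralProj (z : Alg M) : Prop := IsStarProjection z ∧ ∀ a, Commute a z

end

end Crest.Agent.R121
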